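import Vale.Agent.P207.Q.H545.Step5
import Vale.Agent.P207.FDefs3

/-!
# P207: constant sectional curvature from the orthonormal frames
-/

open scoped Manifold ContDiff ENNReal Topology
open Bundle MeasureTheory Set Filter

set_option maxSynthPendingDepth 3

noncomputable section

namespace Vale.Agent.P207.Q.H413

open Vale.Agent.P255 (RMetric coefIn Gam Riem IsGeo Metric trans coefL)
open Vale.Agent.P207 Vale.Agent.P207.Q Vale.Agent.P207.Q.H892 Vale.Agent.P207.Q.H545
open Vale.Agent.P207F (gramDet ConstCurvature)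

variable {n : ℕ} {M : Type} [TopologicalSpace M] [ChartedSpace (EV n) M]
  [IsManifold 𝓘(ℝ, EV n) ∞ M] {g : RMetric (EV n) M}

theorem const_of_Rf {i₀ i₁ : Fin n} (hi : i₀ ≠ i₁) {κ : ℝ}
    (h : ∀ f : Fr g, Rf g f i₁ i₀ i₀ i₁ = -κ) : ConstCurvature g κ := by
  intro a u hu v w
  have key : ∀ v w : EV n, (mt g).coef a u v v = 1 → (mt g).coef a u v w = 0 →
      (mt g).coef a u w w = 1 → (mt g).coef a u (D1.curvT ((mt g).coef a) u w v v) w = -κ := by
    intro v w hv hvw hw
    have hx : (chartAt (EV n) a).symm u ∈ (chartAt (EV n) a).source :=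
      (chartAt (EV n) a).map_target hu
    set x := (chartAt (EV n) a).symm u with hxdef
    have hux : chartAt (EV n) a x = u := (chartAt (EV n) a).right_inv hu
    set T : EV n → EV n := fun v => fderiv ℝ (trans (EV n) a x) u v with hT
    have hin : ∀ v w, innerB g x (T v) (T w) = coefIn g a u v w := by
      intro v w
      have h1 := inner_chFs (ι := Fin 2) g a (y := (u, ![v, w])) hu 0 1
      exact h1
    obtain ⟨f, hf, hf0, hf1⟩ := exists_frame_pair (g := g) hi x (v := T v) (w := T w)
      (by rw [hin]; exact hv) (by rw [hin]; exact hvw) (by rw [hin]; exact hw)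
    have hfs : f.pt ∈ (chartAt (EV n) a).source := by rw [hf]; exact hx
    have h2 := Rf_eq f i₁ i₀ i₀ i₁ hfs
    rw [h f] at h2
    have hc1 : (chF a f.1).1 = u := by
      change chartAt (EV n) a f.pt = u
      rw [hf]; exact hux
    have hc : ∀ i v, f.e i = T v → (chF a f.1).2 i = v := by
      intro i v hv
      change fderiv ℝ (trans (EV n) f.pt a) (chartAt (EV n) f.pt f.pt) (f.e i) = v
      rw [hv, hf, hT]
      have := fderiv_trans_forth a hx v
      rw [hux] at this
      exact this
    rw [hc1, hc i₀ v hf0, hc i₁ w hf1] at h2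
    exact h2.symm
  have h3 := CS.sec_of_unit ((mt g).isMetricOn a) hu key w v
  have h4 : coefIn g a u (Riem (coefIn g a) u v w w) v =
      (mt g).coef a u (D1.curvT ((mt g).coef a) u v w w) v := by
    rw [← D1.riem_mt g a hu]
    rfl
  have h5 : gramDet g a u v w = (mt g).coef a u w w * (mt g).coef a u v v -
      (mt g).coef a u w v ^ 2 := by
    have h6 : coefIn g a u v w = (mt g).coef a u w v :=
      ((mt g).isMetricOn a).symm u hu v w
    unfold gramDet
    rw [h6]
    change (mt g).coef a u v v * (mt g).coef a u w w - _ = _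
    ring
  rw [h4, h3, h5]

end Vale.Agent.P207.Q.H413
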