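import Vale.Agent.P207.Q.H413.Inst
import Vale.Agent.P207.Q.H892.CurvFr
import Vale.Agent.P207.Q.H545.Step5

/-!
# P207: the final glue on the frame bundle of a 3-manifold

From the calculus of the six flows, the curvature relations, the unstable Riccati tensor and the
weak derivatives of `ψ`: the sectional curvature is constant and the metric is locally symmetric.
-/

open scoped Manifold ContDiff ENNReal Topology
open Bundle MeasureTheory Set Filter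

set_option maxSynthPendingDepth 3

noncomputable section

namespace Vale.Agent.P207.Q.H413

open Vale.Agent.P255 (RMetric coefIn Gam Riem IsGeo Metric trans coefL)
open Vale.Agent.P207 Vale.Agent.P207.Q Vale.Agent.P207.Q.H545 Vale.Agent.P207.Q.H892

variable {M : Type} [TopologicalSpace M] [ChartedSpace (EV 3) M]
  [IsManifold 𝓘(ℝ, EV 3) ∞ M] [T2Space M] [CompactSpace M] {g : RMetric (EV 3) M}

/-- **Final glue, bunching form**: `U ≥ ε > 0` and the pointwise inequality of the key identity. -/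
theorem const_of_frames_bunched {mP : Measure (Fr g)} [IsProbabilityMeasure mP]
    [mP.IsOpenPosMeasure] {F : Flows mP} (C : SClass F) {VX VH VV}
    (K : Curv (C.cal VX VH VV)) (h22 : (K.E22 : C(Fr g, ℝ)) = Ef g 2 2)
    (h11 : (K.E11 : C(Fr g, ℝ)) = Ef g 1 1) (h12 : (K.E12 : C(Fr g, ℝ)) = Ef g 1 2)
    (D : UData (C.cal VX VH VV) K) {J : C(Fr g, ℝ) →L[ℝ] ℝ} {h : ℝ} (Q : PsiData D J h)
    {ε : ℝ} (hε : 0 < ε)
    (hpos : ∀ f a b, ε * (a ^ 2 + b ^ 2) ≤ D.U 0 0 f * a ^ 2 + 2 * D.U 0 1 f * (a * b) +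
      D.U 1 1 f * b ^ 2)
    {lam : ℝ} (hc : ∀ f, 0 < lam * (D.U 0 0 f + D.U 1 1 f) - 3 / 2 * lam ^ 2
      - 6 * (((D.U 0 0 f - D.U 1 1 f) / 2) ^ 2 + (D.U 0 1 f) ^ 2)) :
    (∀ f : Fr g, Rf g f 1 0 0 1 = - (h / 2) ^ 2 ∧ Rf g f 2 0 0 2 = - (h / 2) ^ 2 ∧
      Rf g f 1 0 0 2 = 0) ∧ LocSymmetric g := by
  obtain ⟨e22, e11, e12, -⟩ := const_of_data D Q (fun G G' hG => C.wpx G G' hG) hε hpos hc
  have key : ∀ f : Fr g, Rf g f 1 0 0 1 = - (h / 2) ^ 2 ∧ Rf g f 2 0 0 2 = - (h / 2) ^ 2 ∧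
      Rf g f 1 0 0 2 = 0 := by
    intro f
    have a := e22 f
    have b := e11 f
    have d := e12 f
    rw [h22, Ef_22] at a
    rw [h11, Ef_11] at b
    rw [h12, Ef_12] at d
    exact ⟨by linarith, by linarith, d⟩
  exact ⟨key, locSymmetric_of_frames (i₀ := 0) (i₁ := 1) (by decide) fun f => (key f).1⟩

/-- **Final glue, pinched form**: `lam ≤ U ≤ Lam < 2 lam`. -/
theorem const_of_frames {mP : Measure (Fr g)} [IsProbabilityMeasure mP]
    [mP.IsOpenPosMeasure] {F : Flows mP} (C : SClass F) {VX VH VV}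
    (K : Curv (C.cal VX VH VV)) (h22 : (K.E22 : C(Fr g, ℝ)) = Ef g 2 2)
    (h11 : (K.E11 : C(Fr g, ℝ)) = Ef g 1 1) (h12 : (K.E12 : C(Fr g, ℝ)) = Ef g 1 2)
    (D : UData (C.cal VX VH VV) K) {J : C(Fr g, ℝ) →L[ℝ] ℝ} {h : ℝ} (Q : PsiData D J h)
    {lam Lam : ℝ} (hl : 0 < lam) (hL : Lam < 2 * lam)
    (hlo : ∀ f a b, lam * (a ^ 2 + b ^ 2) ≤ D.U 0 0 f * a ^ 2 + 2 * D.U 0 1 f * (a * b) +
      D.U 1 1 f * b ^ 2)
    (hup : ∀ f a b, D.U 0 0 f * a ^ 2 + 2 * D.U 0 1 f * (a * b) +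
      D.U 1 1 f * b ^ 2 ≤ Lam * (a ^ 2 + b ^ 2)) :
    (∀ f : Fr g, Rf g f 1 0 0 1 = - (h / 2) ^ 2 ∧ Rf g f 2 0 0 2 = - (h / 2) ^ 2 ∧
      Rf g f 1 0 0 2 = 0) ∧ LocSymmetric g :=
  const_of_frames_bunched C K h22 h11 h12 D Q hl hlo (lam := lam)
    fun f => bunch_pos hl hL (hlo f) (hup f)

end Vale.Agent.P207.Q.H413
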