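import Vale.Agent.P207.Q.FrSys3
import Vale.Agent.P207.Q.H183.JUCurv
import Vale.Agent.P207.Q.SolFr
import Vale.Agent.P207.Q.WD5
import Vale.Agent.P207.Q.WD6
import Vale.Agent.P207.Q.H916.FlipK
import Vale.Agent.P207.Q.H743.CurvSm
import Vale.Agent.P207.Q.H717.Pinch
import Vale.Agent.P207.Q.H717.PsiFr
import Vale.Agent.P207.Q.H129.JacFr
import Vale.Agent.P207.Q.H413.Glue
import Vale.Agent.P207.Q.H471.LinS

/-!
# P207, n = 3: the objects of the proof on the frame bundle
-/

open scoped Manifold ContDiff ENNReal Topology Matrix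
open Bundle MeasureTheory Set Filter

set_option maxSynthPendingDepth 3
set_option linter.unusedSectionVars false

noncomputable section

namespace Vale.Agent.P207.Q.H413

open Vale.Agent.P255 (RMetric coefIn Gam Riem IsGeo Metric trans coefL)
open Vale.Agent.P207 Vale.Agent.P207.Q Vale.Agent.P207.Q.H545 Vale.Agent.P207.Q.H892
open Vale.Agent.P207.Q.H130 (IsUR Km)
open Vale.Agent.P207F (QuarterPinched ConstCurvature)

variable {M : Type} [TopologicalSpace M] [ChartedSpace (EV 3) M] [IsManifold 𝓘(ℝ, EV 3) ∞ M]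
  [CompactSpace M] [T2Space M] {g : RMetric (EV 3) M}

theorem dense_SmFr : (SmFr g).topologicalClosure = ⊤ :=
  H665.dense_of_smF (SmFr g) fun _ hf => hf

section Fix

variable [Nonempty (Fr g)] {m : Measure (UT g)} {mP : Measure (Fr g)}
  {φ : ℝ → UT g → UT g} (hP : IsMP m mP) (hφ : IsGeoFlow g φ)
  (hmp : ∀ t, MeasurePreserving (φ t) m m)

/-- the six flows -/
abbrev cF : Flows mP := frFlows (horFlows g) hP hφ hmp

/-- the smooth functions -/
abbrev cC : SClass (cF hP hφ hmp) :=
  frClass (horFlows g) hP hφ hmp (horFlows g).hcomp dense_SmFr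

theorem isFrFlows [SecondCountableTopology M] : IsFrFlows (cF hP hφ hmp) where
  hX := (horFlows g).hor 0
  hH := fun i => (horFlows g).hor i.succ
  hV := fun _ _ _ => rfl
  hR := fun _ _ => rfl

theorem hE [SecondCountableTopology M] (a b : Fin 3) : Ef g a b ∈ (cC hP hφ hmp).S :=
  H743.smF_Ef a b

variable [IsProbabilityMeasure mP]

/-- the calculus -/
abbrev cc3 : Cal (intL mP) :=
  frCal (horFlows g) hP hφ hmp (horFlows g).hcomp dense_SmFr

/-- the curvature relations -/
def cK [SecondCountableTopology M] : Curv (cc3 hP hφ hmp) :=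
  curvFr (isFrFlows hP hφ hmp) (cC hP hφ hmp) (fun _ hf => hf) (hE hP hφ hmp)

end Fix

end Vale.Agent.P207.Q.H413
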