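import Vale.Agent.P207.Q.H413.Core
import Vale.Agent.P207.Q.H413.Const

/-!
# P207, n = 3: the statement `core`
-/

open scoped Manifold ContDiff
open Bundle MeasureTheory

noncomputable section

namespace Vale.Agent.P207.Q.H413

open Vale.Agent.P255 (RMetric)
open Vale.Agent.P207F (QuarterPinched ConstCurvature)

/-- **Core.** For a strictly quarter pinched metric on a closed 3-manifold, equality of the
Liouville entropy and the topological entropy forces constant curvature. -/
theorem core {M : Type} [TopologicalSpace M] [ChartedSpace (EV 3) M]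
    [IsManifold 𝓘(ℝ, EV 3) ∞ M] [CompactSpace M] [T2Space M] [ConnectedSpace M]
    [MeasurableSpace M] [BorelSpace M] (g : RMetric (EV 3) M) (hq : QuarterPinched g)
    (φ : ℝ → P207.UT g → P207.UT g) (μ : Measure M) (m : Measure (P207.UT g))
    (hφ : P207.IsGeoFlow g φ) (hμ : P207.IsRiemVol g μ) (hm : P207.IsLiouville g μ m)
    (heq : P207.ksEntropy m (φ 1) = P207.topEntropy (φ 1)) : ∃ κ, ConstCurvature g κ := by
  obtain ⟨h, h1, -⟩ := core_frames hq hφ hμ hm heq
  exact ⟨(h / 2) ^ 2, const_of_Rf (i₀ := 0) (i₁ := 1) (by decide) fun f => (h1 f).1⟩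

end Vale.Agent.P207.Q.H413

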