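import Vale.Agent.P207.Q.H413.Glue
import Vale.Agent.P207.Q.H413.ConstRel

/-!
# P207: the final glue on the frame bundle, variable multiplier and pointwise pinching
-/

open scoped Manifold ContDiff ENNReal Topology
open Bundle MeasureTheory Set Filter

set_option maxSynthPendingDepth 3

noncomputable section

namespace Vale.Agent.P207.Q.H413

open Vale.Agent.P255 (RMetric coefIn Gam Riem IsGeo Metric trans coefL)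
open Vale.Agent.P207 Vale.Agent.P207.Q Vale.Agent.P207.Q.H545 Vale.Agent.P207.Q.H892

variable {M : Type} [TopologicalSpace M] [ChartedSpace (EV 3) M]
  [IsManifold 𝓘(ℝ, EV 3) ∞ M] [T2Space M] [CompactSpace M] {g : RMetric (EV 3) M}

theorem frames_of_E {mP : Measure (Fr g)} [IsProbabilityMeasure mP] {F : Flows mP}
    (C : SClass F) {VX VH VV}
    (K : Curv (C.cal VX VH VV)) (h22 : (K.E22 : C(Fr g, ℝ)) = Ef g 2 2)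
    (h11 : (K.E11 : C(Fr g, ℝ)) = Ef g 1 1) (h12 : (K.E12 : C(Fr g, ℝ)) = Ef g 1 2) {h : ℝ}
    (e22 : ∀ x, (K.E22 : C(Fr g, ℝ)) x = (h / 2) ^ 2)
    (e11 : ∀ x, (K.E11 : C(Fr g, ℝ)) x = (h / 2) ^ 2)
    (e12 : ∀ x, (K.E12 : C(Fr g, ℝ)) x = 0) :
    (∀ f : Fr g, Rf g f 1 0 0 1 = - (h / 2) ^ 2 ∧ Rf g f 2 0 0 2 = - (h / 2) ^ 2 ∧
      Rf g f 1 0 0 2 = 0) ∧ LocSymmetric g := by
  have key : ∀ f : Fr g, Rf g f 1 0 0 1 = - (h / 2) ^ 2 ∧ Rf g f 2 0 0 2 = - (h / 2) ^ 2 ∧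
      Rf g f 1 0 0 2 = 0 := by
    intro f
    have a := e22 f
    have b := e11 f
    have d := e12 f
    rw [h22, Ef_22] at a
    rw [h11, Ef_11] at b
    rw [h12, Ef_12] at d
    exact ⟨by linarith, by linarith, d⟩
  exact ⟨key, locSymmetric_of_frames (i₀ := 0) (i₁ := 1) (by decide) fun f => (key f).1⟩

/-- **Final glue, variable multiplier.** -/
theorem const_of_frames_var {mP : Measure (Fr g)} [IsProbabilityMeasure mP]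
    [mP.IsOpenPosMeasure] {F : Flows mP} (C : SClass F) {VX VH VV}
    (K : Curv (C.cal VX VH VV)) (h22 : (K.E22 : C(Fr g, ℝ)) = Ef g 2 2)
    (h11 : (K.E11 : C(Fr g, ℝ)) = Ef g 1 1) (h12 : (K.E12 : C(Fr g, ℝ)) = Ef g 1 2)
    (D : UData (C.cal VX VH VV) K) {J : C(Fr g, ℝ) →L[ℝ] ℝ} {h : ℝ} (Q : PsiData D J h)
    {ε : ℝ} (hε : 0 < ε)
    (hpos : ∀ f a b, ε * (a ^ 2 + b ^ 2) ≤ D.U 0 0 f * a ^ 2 + 2 * D.U 0 1 f * (a * b) +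
      D.U 1 1 f * b ^ 2)
    {l : C(Fr g, ℝ)} {dl : Idx → C(Fr g, ℝ)} (jl : Jet (C.cal VX VH VV) l dl)
    (hc : ∀ x, 0 < dl .X x + l x * (D.U 0 0 x + D.U 1 1 x) - 3 / 2 * l x ^ 2
      - 6 * (((D.U 0 0 x - D.U 1 1 x) / 2) ^ 2 + (D.U 0 1 x) ^ 2)) :
    (∀ f : Fr g, Rf g f 1 0 0 1 = - (h / 2) ^ 2 ∧ Rf g f 2 0 0 2 = - (h / 2) ^ 2 ∧
      Rf g f 1 0 0 2 = 0) ∧ LocSymmetric g := by
  obtain ⟨e22, e11, e12, -⟩ :=
    const_of_data_var D Q (fun G G' hG => C.wpx G G' hG) hε hpos jl hc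
  exact frames_of_E C K h22 h11 h12 e22 e11 e12

/-- **Final glue, pointwise pinching.** -/
theorem const_of_frames_rel {mP : Measure (Fr g)} [IsProbabilityMeasure mP]
    [mP.IsOpenPosMeasure] {F : Flows mP} (C : SClass F) {VX VH VV}
    (K : Curv (C.cal VX VH VV)) (h22 : (K.E22 : C(Fr g, ℝ)) = Ef g 2 2)
    (h11 : (K.E11 : C(Fr g, ℝ)) = Ef g 1 1) (h12 : (K.E12 : C(Fr g, ℝ)) = Ef g 1 2)
    (D : UData (C.cal VX VH VV) K) {J : C(Fr g, ℝ) →L[ℝ] ℝ} {h : ℝ} (Q : PsiData D J h)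
    {ε : ℝ} (hε : 0 < ε)
    (hpos : ∀ f a b, ε * (a ^ 2 + b ^ 2) ≤ D.U 0 0 f * a ^ 2 + 2 * D.U 0 1 f * (a * b) +
      D.U 1 1 f * b ^ 2)
    (hk : ∀ x, ((K.K 0 0 x - K.K 1 1 x) / 2) ^ 2 + (K.K 0 1 x) ^ 2 ≤
      (7 / 34) ^ 2 * (K.K 0 0 x + K.K 1 1 x) ^ 2)
    (h0 : ∀ x, 0 ≤ K.K 0 0 x + K.K 1 1 x)
    (hb : ∀ x, ((D.U 0 0 x - D.U 1 1 x) / 2) ^ 2 + (D.U 0 1 x) ^ 2 ≤
      (7 / 34) ^ 2 * (D.U 0 0 x + D.U 1 1 x) ^ 2) :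
    (∀ f : Fr g, Rf g f 1 0 0 1 = - (h / 2) ^ 2 ∧ Rf g f 2 0 0 2 = - (h / 2) ^ 2 ∧
      Rf g f 1 0 0 2 = 0) ∧ LocSymmetric g := by
  obtain ⟨e22, e11, e12, -⟩ :=
    const_of_rel D Q (fun G G' hG => C.wpx G G' hG) hε hpos hk h0 hb
  exact frames_of_E C K h22 h11 h12 e22 e11 e12

end Vale.Agent.P207.Q.H413
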