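import Vale.Agent.P207.Q.H413.Core1
import Vale.Agent.P207.Q.H413.GlueRel
import Vale.Agent.P207.Q.H222.WD4
import Vale.Agent.P207.BlkL

/-!
# P207, n = 3: the weak derivatives of the transfer function, for any `C¹` unstable tensor
-/

open scoped Manifold ContDiff ENNReal Topology Matrix
open Bundle MeasureTheory Set Filter

set_option maxSynthPendingDepth 3
set_option linter.unusedSectionVars false

noncomputable section

namespace Vale.Agent.P207.Q.H413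

open Vale.Agent.P255 (RMetric coefIn Gam Riem IsGeo Metric trans coefL)
open Vale.Agent.P207 Vale.Agent.P207.Q Vale.Agent.P207.Q.H545 Vale.Agent.P207.Q.H892
open Vale.Agent.P207.Q.H130 (IsUR Km)
open Vale.Agent.P207F (ConstCurvature)

variable {M : Type} [TopologicalSpace M] [ChartedSpace (EV 3) M] [IsManifold 𝓘(ℝ, EV 3) ∞ M]
  [CompactSpace M] [T2Space M] {g : RMetric (EV 3) M}

section Fix

variable [Nonempty (Fr g)] {m : Measure (UT g)} {mP : Measure (Fr g)}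
  {φ : ℝ → UT g → UT g} {hP : IsMP m mP} {hφ : IsGeoFlow g φ}
  {hmp : ∀ t, MeasurePreserving (φ t) m m}

theorem cK_K00 [SecondCountableTopology M] [IsProbabilityMeasure mP] (f : Fr g) :
    (cK hP hφ hmp).K 0 0 f = - Rf g f 1 0 0 1 := by
  have h22 : ((cK hP hφ hmp).E22 : C(Fr g, ℝ)) = Ef g 2 2 := rfl
  rw [H183.K00, h22, Ef_22]

theorem cK_K01 [SecondCountableTopology M] [IsProbabilityMeasure mP] (f : Fr g) :
    (cK hP hφ hmp).K 0 1 f = - Rf g f 1 0 0 2 := by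
  have h12 : ((cK hP hφ hmp).E12 : C(Fr g, ℝ)) = Ef g 1 2 := rfl
  rw [H183.K01, ContinuousMap.neg_apply, h12, Ef_12]

theorem cK_K10 [SecondCountableTopology M] [IsProbabilityMeasure mP] (f : Fr g) :
    (cK hP hφ hmp).K 1 0 f = - Rf g f 1 0 0 2 := by
  have h12 : ((cK hP hφ hmp).E12 : C(Fr g, ℝ)) = Ef g 1 2 := rfl
  rw [H183.K10, ContinuousMap.neg_apply, h12, Ef_12]

theorem cK_K11 [SecondCountableTopology M] [IsProbabilityMeasure mP] (f : Fr g) :
    (cK hP hφ hmp).K 1 1 f = - Rf g f 2 0 0 2 := by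
  have h11 : ((cK hP hφ hmp).E11 : C(Fr g, ℝ)) = Ef g 1 1 := rfl
  rw [H183.K11, h11, Ef_11]

/-- **The weak derivatives of the transfer function**, from the equality of the entropies and a
`C¹` unstable tensor. -/
theorem exists_psi_of_UData [ConnectedSpace M] [MeasurableSpace M] [BorelSpace M]
    [SecondCountableTopology M] [IsProbabilityMeasure mP] [mP.IsOpenPosMeasure]
    (hneg : NegCurvature g) {μ : Measure M} (hμ : IsRiemVol g μ) (hm : IsLiouville g μ m)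
    (heq : ksEntropy m (φ 1) = topEntropy (φ 1))
    (D : UData (cc3 hP hφ hmp) (cK hP hφ hmp)) {lam Lam : ℝ} (hl : 0 < lam) (hle : lam ≤ Lam)
    (hlo : ∀ f a b, lam * (a ^ 2 + b ^ 2) ≤ D.U 0 0 f * a ^ 2 + 2 * D.U 0 1 f * (a * b) +
      D.U 1 1 f * b ^ 2)
    (hup : ∀ f a b, D.U 0 0 f * a ^ 2 + 2 * D.U 0 1 f * (a * b) +
      D.U 1 1 f * b ^ 2 ≤ Lam * (a ^ 2 + b ^ 2))
    (hric : ∀ i j f r, HasDerivAt (fun s => D.U i j ((horFlows g).Φ 0 s f))
      (((cK hP hφ hmp).K i j - ∑ k, D.U i k * D.U k j) ((horFlows g).Φ 0 r f)) r) :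
    ∃ (h : ℝ) (J : C(Fr g, ℝ) →L[ℝ] ℝ), Nonempty (PsiData D J h) := by
  let H := horFlows g
  let C : Curv (cc3 hP hφ hmp) := cK hP hφ hmp
  -- the unstable tensor as a matrix
  let U : Fr g → Matrix (Fin 2) (Fin 2) ℝ := fun f => Matrix.of fun i j => D.U i j f
  have hUa : ∀ f i j, U f i j = D.U i j f := fun _ _ _ => rfl
  have hform : ∀ f (x : Fin 2 → ℝ), x ⬝ᵥ (U f *ᵥ x) =
      D.U 0 0 f * x 0 ^ 2 + 2 * D.U 0 1 f * (x 0 * x 1) + D.U 1 1 f * x 1 ^ 2 := fun f x => by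
    simp only [dotProduct, Matrix.mulVec, Fin.sum_univ_two, hUa, D.symU]
    ring
  have hsq : ∀ x : Fin 2 → ℝ, x ⬝ᵥ x = x 0 ^ 2 + x 1 ^ 2 := fun x => by
    simp only [dotProduct, Fin.sum_univ_two]
    ring
  have hlo' : ∀ f (x : Fin 2 → ℝ), lam * (x ⬝ᵥ x) ≤ x ⬝ᵥ (U f *ᵥ x) := fun f x => by
    rw [hform, hsq]; exact hlo f (x 0) (x 1)
  have hup' : ∀ f (x : Fin 2 → ℝ), x ⬝ᵥ (U f *ᵥ x) ≤ Lam * (x ⬝ᵥ x) := fun f x => by
    rw [hform, hsq]; exact hup f (x 0) (x 1)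
  have hKm : ∀ f i j, C.K i j f = Km g f i j := by
    intro f i j
    match i, j with
    | 0, 0 => exact cK_K00 f
    | 0, 1 => exact cK_K01 f
    | 1, 1 => exact cK_K11 f
    | 1, 0 =>
      have e := cK_K10 (hP := hP) (hφ := hφ) (hmp := hmp) f
      refine e.trans ?_
      have := congrFun (congrFun (H130.Km_symm f) 0) 1
      exact this.symm
  have hric' : ∀ f r i j, HasDerivAt (fun s => U (H.Φ 0 s f) i j)
      (Km g (H.Φ 0 r f) i j - (U (H.Φ 0 r f) * U (H.Φ 0 r f)) i j) r := by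
    intro f r i j
    refine (hric i j f r).congr_deriv ?_
    rw [← hKm, Matrix.mul_apply]
    rfl
  have hUR : IsUR (H.Φ 0) lam (∑ i, ∑ j, ‖D.U i j‖) U :=
    ⟨hl, hlo', fun f i j => ((D.U i j).norm_coe_le_norm f).trans
      ((Finset.single_le_sum (f := fun j => ‖D.U i j‖) (fun j _ => norm_nonneg _)
            (Finset.mem_univ j)).trans
        (Finset.single_le_sum (f := fun i => ∑ j, ‖D.U i j‖)
            (fun i _ => Finset.sum_nonneg fun j _ => norm_nonneg _) (Finset.mem_univ i))), hric'⟩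
  have hΦ := H.hor 0
  obtain ⟨t, ht, -⟩ := hUR.exists_t hΦ (fun i => (D.U i i).continuous) hφ
  -- the transfer function
  have hL : 0 < Lam := hl.trans_le hle
  obtain ⟨hJu, hJl⟩ := H129.jac_upper_lower hΦ hφ hl hL (fun f i j r => hric' f r i j)
    (fun f => hUR.symm hΦ f) hlo' hup' ht
  obtain ⟨ψ, hψm, hψi, hψm', hψi', hψc⟩ := H717.exists_psi_fr (by norm_num : 2 ≤ 3) hφ hneg hμ hm
    heq t.continuous hJu hJl hP.ut (fun r f => hΦ.ut_eq hφ r f)
  set h : ℝ := (topEntropy (φ 1)).toReal with hh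
  have htt : ∀ f : Fr g, t (f.ut 0) = WD.tt D f := fun f => by
    rw [ht, Matrix.trace_fin_two]
    rfl
  let F := frFlowS H hP hφ hmp H.hcomp dense_SmFr
  have hS : WD.Sol D F h (fun f : Fr g => ψ (f.ut 0)) :=
    { meas := hψm'
      int := hψi'
      coc := fun r => by
        have h1 := hψc r
        simp only [htt] at h1
        exact h1
      app := fun ε hε => WD.app_of_ut H hP hφ hmp H.hcomp dense_SmFr hψi hε }
  have hH : WD.Hyp D F lam := fr_hyp H hP hφ hmp H.hcomp dense_SmFr D hl hlo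
  have hM : MFlow mP F.φ := (cF hP hφ hmp).mflow .X
  let σ := flipFr H hP hφ hmp H.hcomp dense_SmFr F (fun _ _ => rfl)
  have hσ : ∀ f, σ.σ f = flipF f := fun _ => rfl
  have hKσ : ∀ i j f, C.K i j (σ.σ f) = C.K i j f := by
    intro i j f
    have e22 : (C.E22 : C(Fr g, ℝ)) (flipF f) = (C.E22 : C(Fr g, ℝ)) f := Ef_flip_22 f
    have e11 : (C.E11 : C(Fr g, ℝ)) (flipF f) = (C.E11 : C(Fr g, ℝ)) f := Ef_flip_11 f
    have e12 : (C.E12 : C(Fr g, ℝ)) (flipF f) = (C.E12 : C(Fr g, ℝ)) f := Ef_flip_12 f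
    rw [hσ]
    match i, j with
    | 0, 0 => exact e22
    | 0, 1 => exact congrArg Neg.neg e12
    | 1, 0 => exact congrArg Neg.neg e12
    | 1, 1 => exact e11
  have hLa : ∀ L : C(Fr g, ℝ), (∀ x, L x = Real.log (σ.SS D 0 0 x * σ.SS D 1 1 x -
      σ.SS D 0 1 x * σ.SS D 0 1 x)) → ∀ ε > 0, ∃ f : (cc3 hP hφ hmp).S,
        (cc3 hP hφ hmp).Y .R f = 0 ∧ ∫ x, |L x - (f : C(Fr g, ℝ)) x| ∂mP ≤ ε := by
    intro L hLx ε hε
    have hdet : ∀ x, σ.SS D 0 0 x * σ.SS D 1 1 x - σ.SS D 0 1 x * σ.SS D 0 1 x =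
        (U x + U (flipF x)).det := fun x => by
      simp only [WD.Flip.SS_apply, hσ, Matrix.det_fin_two, Matrix.add_apply, hUa, D.symU]
    refine WD.app_of_inv H hP hφ hmp H.hcomp dense_SmFr L (fun A hA p => ?_) hε
    rw [hLx, hLx, hdet, hdet, WD.det_inv (fun A hA f => hUR.rot hΦ hA f) hA]
  have wpx : ∀ G G' : C(Fr g, ℝ), WX (cc3 hP hφ hmp) G G' → intL mP (G * G') = 0 :=
    fun G G' hG => (cC hP hφ hmp).wpx G G' hG
  obtain ⟨Q⟩ := WD.exists_psiData hH hM wpx σ hKσ hS hLa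
  exact ⟨h, _, ⟨Q⟩⟩

end Fix

end Vale.Agent.P207.Q.H413
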