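import Vale.Agent.P207.Q.H413.CorePsi
import Vale.Agent.P207.Q.H413.Const

/-!
# P207, n = 3: pointwise pinching, everything except the construction of the unstable tensor
-/

open scoped Manifold ContDiff ENNReal Topology Matrix
open Bundle MeasureTheory Set Filter

set_option maxSynthPendingDepth 3
set_option linter.unusedSectionVars false

noncomputable section

namespace Vale.Agent.P207.Q.H413

open Vale.Agent.P255 (RMetric coefIn Gam Riem IsGeo Metric trans coefL)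
open Vale.Agent.P207 Vale.Agent.P207.Q Vale.Agent.P207.Q.H545 Vale.Agent.P207.Q.H892
open Vale.Agent.P207F (ConstCurvature)

variable {M : Type} [TopologicalSpace M] [ChartedSpace (EV 3) M] [IsManifold 𝓘(ℝ, EV 3) ∞ M]
  [CompactSpace M] [T2Space M] {g : RMetric (EV 3) M}

/-- the setting on the frame bundle -/
theorem exists_setting [ConnectedSpace M] [MeasurableSpace M] [BorelSpace M]
    {φ : ℝ → UT g → UT g} {μ : Measure M} {m : Measure (UT g)}
    (hφ : IsGeoFlow g φ) (hμ : IsRiemVol g μ) (hm : IsLiouville g μ m) :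
    SecondCountableTopology M ∧ Nonempty (Fr g) ∧
      (∀ t, MeasurePreserving (φ t) m m) ∧
      ∃ mP : Measure (Fr g), IsMP m mP ∧ IsProbabilityMeasure mP ∧ mP.IsOpenPosMeasure := by
  have : SecondCountableTopology M := ChartedSpace.secondCountable_of_sigmaCompact (EV 3) M
  obtain ⟨x₀⟩ := (inferInstance : Nonempty M)
  obtain ⟨f₀, -⟩ := H892.exists_frame g x₀
  have : Nonempty (Fr g) := ⟨f₀⟩
  have hmp := fun t => IsLiouville.measurePreserving (by norm_num : 1 ≤ 3) hφ hμ hm t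
  obtain ⟨mP, hP⟩ := exists_isMP hμ hm
  exact ⟨inferInstance, inferInstance, hmp, mP, hP, hP.prob, hP.openPos⟩

section Fix

variable [Nonempty (Fr g)] {m : Measure (UT g)} {mP : Measure (Fr g)}
  {φ : ℝ → UT g → UT g} {hP : IsMP m mP} {hφ : IsGeoFlow g φ}
  {hmp : ∀ t, MeasurePreserving (φ t) m m}

/-- **Pointwise pinching.** If the unstable tensor is of class `C¹` and pinched by `c = 7/34` and
the curvature is pointwise pinched by the same constant, equality of the entropies forces constant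
curvature. -/
theorem const_of_UData_rel [ConnectedSpace M] [MeasurableSpace M] [BorelSpace M]
    [SecondCountableTopology M] [IsProbabilityMeasure mP] [mP.IsOpenPosMeasure]
    (hneg : NegCurvature g) {μ : Measure M} (hμ : IsRiemVol g μ) (hm : IsLiouville g μ m)
    (heq : ksEntropy m (φ 1) = topEntropy (φ 1))
    (D : UData (cc3 hP hφ hmp) (cK hP hφ hmp)) {lam Lam : ℝ} (hl : 0 < lam) (hle : lam ≤ Lam)
    (hlo : ∀ f a b, lam * (a ^ 2 + b ^ 2) ≤ D.U 0 0 f * a ^ 2 + 2 * D.U 0 1 f * (a * b) +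
      D.U 1 1 f * b ^ 2)
    (hup : ∀ f a b, D.U 0 0 f * a ^ 2 + 2 * D.U 0 1 f * (a * b) +
      D.U 1 1 f * b ^ 2 ≤ Lam * (a ^ 2 + b ^ 2))
    (hric : ∀ i j f r, HasDerivAt (fun s => D.U i j ((horFlows g).Φ 0 s f))
      (((cK hP hφ hmp).K i j - ∑ k, D.U i k * D.U k j) ((horFlows g).Φ 0 r f)) r)
    (hk : ∀ f : Fr g, ((-Rf g f 1 0 0 1 - -Rf g f 2 0 0 2) / 2) ^ 2 + (-Rf g f 1 0 0 2) ^ 2 ≤
      (7 / 34) ^ 2 * (-Rf g f 1 0 0 1 + -Rf g f 2 0 0 2) ^ 2)
    (h0 : ∀ f : Fr g, 0 ≤ -Rf g f 1 0 0 1 + -Rf g f 2 0 0 2)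
    (hb : ∀ x, ((D.U 0 0 x - D.U 1 1 x) / 2) ^ 2 + (D.U 0 1 x) ^ 2 ≤
      (7 / 34) ^ 2 * (D.U 0 0 x + D.U 1 1 x) ^ 2) :
    (∃ κ, ConstCurvature g κ) ∧ LocSymmetric g := by
  obtain ⟨h, J, ⟨Q⟩⟩ := exists_psi_of_UData hneg hμ hm heq D hl hle hlo hup hric
  obtain ⟨h1, h2⟩ := const_of_frames_rel (cC hP hφ hmp) (cK hP hφ hmp) rfl rfl rfl D Q hl hlo
    (fun f => by
      have e0 := cK_K00 (hP := hP) (hφ := hφ) (hmp := hmp) f
      have e1 := cK_K01 (hP := hP) (hφ := hφ) (hmp := hmp) f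
      have e2 := cK_K11 (hP := hP) (hφ := hφ) (hmp := hmp) f
      have e := hk f
      rw [← e0, ← e1, ← e2] at e
      exact e)
    (fun f => by
      have e0 := cK_K00 (hP := hP) (hφ := hφ) (hmp := hmp) f
      have e2 := cK_K11 (hP := hP) (hφ := hφ) (hmp := hmp) f
      have e := h0 f
      rw [← e0, ← e2] at e
      exact e) hb
  exact ⟨⟨(h / 2) ^ 2, const_of_Rf (i₀ := 0) (i₁ := 1) (by decide) fun f => (h1 f).1⟩, h2⟩

/-- **Variable multiplier.** The same with an arbitrary `C¹` multiplier. -/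
theorem const_of_UData_var [ConnectedSpace M] [MeasurableSpace M] [BorelSpace M]
    [SecondCountableTopology M] [IsProbabilityMeasure mP] [mP.IsOpenPosMeasure]
    (hneg : NegCurvature g) {μ : Measure M} (hμ : IsRiemVol g μ) (hm : IsLiouville g μ m)
    (heq : ksEntropy m (φ 1) = topEntropy (φ 1))
    (D : UData (cc3 hP hφ hmp) (cK hP hφ hmp)) {lam Lam : ℝ} (hl : 0 < lam) (hle : lam ≤ Lam)
    (hlo : ∀ f a b, lam * (a ^ 2 + b ^ 2) ≤ D.U 0 0 f * a ^ 2 + 2 * D.U 0 1 f * (a * b) +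
      D.U 1 1 f * b ^ 2)
    (hup : ∀ f a b, D.U 0 0 f * a ^ 2 + 2 * D.U 0 1 f * (a * b) +
      D.U 1 1 f * b ^ 2 ≤ Lam * (a ^ 2 + b ^ 2))
    (hric : ∀ i j f r, HasDerivAt (fun s => D.U i j ((horFlows g).Φ 0 s f))
      (((cK hP hφ hmp).K i j - ∑ k, D.U i k * D.U k j) ((horFlows g).Φ 0 r f)) r)
    {l : C(Fr g, ℝ)} {dl : Idx → C(Fr g, ℝ)} (jl : Jet (cc3 hP hφ hmp) l dl)
    (hc : ∀ x, 0 < dl .X x + l x * (D.U 0 0 x + D.U 1 1 x) - 3 / 2 * l x ^ 2
      - 6 * (((D.U 0 0 x - D.U 1 1 x) / 2) ^ 2 + (D.U 0 1 x) ^ 2)) :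
    (∃ κ, ConstCurvature g κ) ∧ LocSymmetric g := by
  obtain ⟨h, J, ⟨Q⟩⟩ := exists_psi_of_UData hneg hμ hm heq D hl hle hlo hup hric
  obtain ⟨h1, h2⟩ := const_of_frames_var (cC hP hφ hmp) (cK hP hφ hmp) rfl rfl rfl D Q hl hlo jl hc
  exact ⟨⟨(h / 2) ^ 2, const_of_Rf (i₀ := 0) (i₁ := 1) (by decide) fun f => (h1 f).1⟩, h2⟩

end Fix

end Vale.Agent.P207.Q.H413
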